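import Vale.Agent.P064K.CoreK
import Vale.Agent.P064.Main

/-! The threshold bound with a single logarithm. -/

namespace Vale.Agent.P064

open Finset Real Vale.Agent.P047 SimpleGraph
open scoped Pointwise

section

variable {E : Type} [DecidableEq E] {Γ : Type} [Group Γ] [Fintype Γ] [MulAction Γ E]

open Classical in
theorem thresholdK_Final [Fintype E] (X H : Finset E) (hX : ∀ g : Γ, g • H ⊆ X) (hne : H.Nonempty)
    {x p q : ℝ} (hx : log 2 ≤ x) (hE : Fintype.card E ≤ exp (2 * x)) (hp : 2 * p ≤ 1)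
    (hH : ∀ U ⊆ H, U.Nonempty → nu Γ U U ≤ 2 * p ^ U.card)
    (hq : 384 * p * x * exp 50 ≤ q) (hq1 : q ≤ 1) :
    ex X q (fun W => if ∃ g : Γ, g • H ⊆ W then 0 else 1) ≤ 1 / 3 := by
  obtain ⟨e, he⟩ := hne
  have l1 := log_two_gt_d9
  have hx0 : 0 < x := by linarith
  have hp0 : 0 < 2 * p := by
    simpa using (nu_pos subset_rfl).trans_le (hH {e} (by simpa) (singleton_nonempty e))
  set Λ := -log (2 * p) with hΛ
  have hΛ0 : 0 ≤ Λ := neg_nonneg.2 (log_nonpos hp0.le hp)
  have hH' : ∀ U ⊆ H, U.card * Λ ≤ -log (nu Γ U U) := by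
    intro U hU
    rw [hΛ, mul_neg, ← log_pow]
    refine neg_le_neg (log_le_log (nu_pos subset_rfl) ?_)
    rcases U.eq_empty_or_nonempty with rfl | hne
    · simp [nu]
    · refine (hH U hU hne).trans ?_
      rw [mul_pow]
      exact mul_le_mul_of_nonneg_right (le_self_pow₀ (by norm_num) hne.card_pos.ne')
        (pow_nonneg (by linarith) _)
  obtain ⟨J, -, -, j1, -, j3, j4, -, -⟩ := numerics hx
  have hc : (H.card : ℝ) ≤ exp (2 * x) := le_trans (by exact_mod_cast card_le_univ H) hE
  have e4 : exp (4 * x) = exp (2 * x) * exp (2 * x) := by rw [← exp_add]; ring_nf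
  have e2 : 2 * x + 1 ≤ exp (2 * x) := add_one_le_exp _
  set r := 2 * p * exp 50 with hr
  have hr0 : 0 < r := by positivity
  have hsp : ∀ T : Finset E, T.Nonempty → nu Γ H T ≤ r ^ T.card := by
    intro T hT
    by_cases h : ∃ g : Γ, g • T ⊆ H
    · obtain ⟨g, hg⟩ := h
      have h1 := coreK hH' hg
      rw [card_smul_finset] at h1
      rw [← nu_smul_right H T g, ← exp_log (nu_pos hg), ← exp_log (pow_pos hr0 _), log_pow,
        log_mul hp0.ne' (exp_pos _).ne', log_exp]
      exact exp_le_exp.2 (by linarith)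
    · rw [nu, sum_eq_zero fun g _ => if_neg fun h' => h ⟨g, h'⟩, zero_div]
      positivity
  have hJ2 : (2 : ℝ) ≤ J := by exact_mod_cast j1
  have hq' : J * (16 * r) ≤ q := by
    refine le_trans ?_ hq
    have := mul_le_mul_of_nonneg_right j3 (show 0 ≤ 16 * r by positivity)
    linarith
  have h := spread' X (p := 16 * r) (κ := r⁻¹) (by positivity) (by nlinarith) (by field_simp)
    (fun _ : Γ => (Fintype.card Γ : ℝ)⁻¹) J univ (fun g => g • H) q hq' hq1
    (fun _ _ => by positivity) (fun g _ => hX g) (fun g _ => by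
      rw [card_smul_finset]
      have : (H.card : ℝ) < 2 ^ J := by nlinarith
      exact_mod_cast this) fun T hT => by
      rw [one_div, inv_inv]
      refine le_of_eq_of_le ?_ (hsp T hT)
      rw [nu, sum_filter, sum_div]
      refine Fintype.sum_equiv (Equiv.inv Γ) _ _ fun g => ?_
      simp only [Equiv.inv_apply, ← subset_smul_finset_iff]
      split_ifs <;> simp
  rw [sum_const, card_univ, nsmul_eq_mul, mul_inv_cancel₀ (cardG_pos Γ).ne', one_mul] at h
  simp only [mem_univ, true_and] at h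
  have : (0 : ℝ) ≤ (1 / 4) ^ J := by positivity
  convert h.trans (show _ ≤ 1 / 3 by linarith)

end

section

attribute [local instance] permAct

variable {n : ℕ} {V : Type} (H : SimpleGraph V)

theorem pc_le_Final [Fintype V] (hn : 2 ≤ n) (hV : Fintype.card V ≤ n) (hH : H.edgeSet.Nonempty)
    {p : ℝ} (hp : p ∈ Set.Icc (0 : ℝ) 1)
    (h : ∀ F : H.Subgraph, 1 / 2 ≤ gnpE n p fun G => (G.copyCount F.coe : ℝ)) :
    pc n H ≤ 384 * p * log n * exp 50 := by
  classical
  obtain ⟨f⟩ : Nonempty (V ↪ Fin n) := Function.Embedding.nonempty_of_card_le (by simpa)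
  have hb : BddBelow {p | p ∈ Set.Icc (0 : ℝ) 1 ∧
      1 / 2 ≤ gnpE n p fun G => if 0 < G.copyCount H then 1 else 0} := ⟨0, fun p hp => hp.1.1⟩
  have hn' : (2 : ℝ) ≤ n := by exact_mod_cast hn
  have hx : log 2 ≤ log n := log_le_log (by norm_num) hn'
  have l1 := log_two_gt_d9
  set q := 384 * p * log n * exp 50 with hq
  by_cases hq1 : 1 ≤ q
  · refine (csInf_le hb ⟨⟨zero_le_one, le_rfl⟩, ?_⟩).trans hq1
    rw [gnpE_one, if_pos (copyCount_pos.2 ⟨⟨⟨f, fun h e => h.ne (f.injective e)⟩, f.injective⟩⟩)]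
    norm_num
  have he : 1 ≤ exp 50 := one_le_exp (by positivity)
  have hq0 : 0 ≤ q := by have := hp.1; have : 0 < log n := by linarith
                         positivity
  have hp2 : 2 * p ≤ 1 := by
    have h1 : 384 * p * log n ≤ q :=
      le_mul_of_one_le_right (by have := hp.1; have : 0 < log n := by linarith
                                 positivity) he
    nlinarith [hp.1]
  have ht := thresholdK_Final (Γ := Equiv.Perm (Fin n)) (allE n) (edg H f) (smul_edg H f) (by
      obtain ⟨e, he⟩ := hH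
      induction e using Sym2.inductionOn with | hf v w
      exact ⟨_, (mem_edg H f).2 ⟨v, w, he, rfl⟩⟩) hx (by
      rw [Sym2.card, Fintype.card_fin, two_mul, exp_add, exp_log (by linarith), Nat.cast_choose_two]
      push_cast
      nlinarith) hp2 (fun U hU _ => by
      have h1 := h (subOf H f U)
      rw [gnpE_eq] at h1
      have h2 := mul_le_mul_of_nonneg_left h1 (nu_nonneg (Γ := Equiv.Perm (Fin n)) U U)
      rw [← ex_mul] at h2
      have h3 := h2.trans ((ex_mono _ hp.1 hp.2 fun W _ =>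
        (mul_comm _ _).le.trans (copy_le H f hU W)).trans (ex_nu _ hp.1 hp.2 U))
      linarith) hq.ge (not_le.1 hq1).le
  refine csInf_le hb ⟨⟨hq0, (not_le.1 hq1).le⟩, ?_⟩
  rw [gnpE_eq]
  have h1 := ex_const (allE n) q 1
  have h2 := ex_mono (allE n) hq0 (not_le.1 hq1).le (F := fun _ => 1)
    (G := fun W => (if 0 < (fromEdgeSet (W : Set (Sym2 (Fin n)))).copyCount H then 1 else 0) +
      if ∃ g : Equiv.Perm (Fin n), g • edg H f ⊆ W then 0 else 1) fun W _ => by
      by_cases h : ∃ g : Equiv.Perm (Fin n), g • edg H f ⊆ W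
      · obtain ⟨g, hg⟩ := h
        rw [if_pos (copyCount_pos.2 (contained_of H f hg)), if_pos ⟨g, hg⟩, add_zero]
      · rw [if_neg h]
        split_ifs <;> norm_num
  rw [ex_add] at h2
  linarith

end

theorem mainK : ∃ C : ℝ, ∀ n : ℕ, 2 ≤ n → ∀ (V : Type) [Fintype V] (H : SimpleGraph V),
    Fintype.card V ≤ n → H.edgeSet.Nonempty → pc n H ≤ C * pE n H * log n := by
  refine ⟨384 * exp 50, fun n hn V _ H hV hH => ?_⟩
  have hn' : (2 : ℝ) ≤ n := by exact_mod_cast hn
  have hx : 0 < log n := log_pos (by linarith)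
  have hc : 0 < 384 * exp 50 * log n := by positivity
  rw [show 384 * exp 50 * pE n H * log n = pE n H * (384 * exp 50 * log n) by ring,
    ← div_le_iff₀ hc]
  refine le_csInf ⟨1, ⟨zero_le_one, le_rfl⟩, fun F => ?_⟩ fun p hp => ?_
  · obtain ⟨f⟩ : Nonempty (V ↪ Fin n) := Function.Embedding.nonempty_of_card_le (by simpa)
    have : 0 < (⊤ : SimpleGraph (Fin n)).copyCount F.coe := copyCount_pos.2
      ⟨⟨⟨fun v => f v, fun h e => h.ne (Subtype.ext (f.injective e))⟩,
        f.injective.comp Subtype.val_injective⟩⟩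
    have : (1 : ℝ) ≤ (⊤ : SimpleGraph (Fin n)).copyCount F.coe := by exact_mod_cast this
    rw [gnpE_one]
    linarith
  · rw [div_le_iff₀ hc]
    refine (pc_le_Final H hn hV hH hp.1 hp.2).trans (le_of_eq ?_)
    ring

end Vale.Agent.P064
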